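import Vale.Agent.P022G.Defs
import Vale.Agent.P022G.Klev
import Vale.Agent.P022F.Nak

/-!
# P022G, row KDEL: the kernel of a pseudo object and generation by the symbols
-/

set_option linter.all false

noncomputable section

namespace Vale.Agent.P022G

open NumberField IsLocalRing
open Vale.Agent.P022 Vale.Agent.P022.H346 Vale.Agent.P022G.R Vale.Agent.P022G.Loc
open Vale.Agent.P027M.S (Inert mx)
open Vale.Agent.P022D.Sel (M2)
open Vale.Agent.P022F.Gm (GM)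

variable {O F : Type} [CommRing O] [Field F] {S : Dat O F} {B : Type} [CommRing B]

/-- the kernel of a pseudo object -/
def PO.N (Z : PO S B) : Subgroup GQ where
  carrier := {u | ∀ g, Z.t (g * u) = Z.t g}
  one_mem' := fun g => by rw [mul_one]
  mul_mem' := fun {u v} hu hv g => by rw [← mul_assoc, hv, hu]
  inv_mem' := fun {u} hu g => by rw [← hu (g * u⁻¹), inv_mul_cancel_right]

theorem PO.mem_N (Z : PO S B) {u : GQ} : u ∈ Z.N ↔ ∀ g, Z.t (g * u) = Z.t g := Iff.rfl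

theorem PO.N_normal (Z : PO S B) : Z.N.Normal := ⟨fun u hu h g => by
  rw [← mul_assoc, Z.tf.comm, ← mul_assoc, ← mul_assoc, hu, mul_assoc, Z.tf.comm,
    mul_inv_cancel_right]⟩

theorem PO.N_open (Z : PO S B) : IsOpen (Z.N : Set GQ) := by
  obtain ⟨U, hU, h⟩ := Z.opn
  exact Subgroup.isOpen_mono (H₁ := U) (fun u hu => h u hu) hU

theorem PO.reg (Z : PO S B) : ∃ u, (Z.a S.g0 - Z.b S.g0) * u = 1 :=
  (Z.loc _ (by rw [map_sub, Z.ra, Z.rb]; exact sub_ne_zero.2 S.dne)).exists_right_inv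

theorem PO.N_inv (Z : PO S B) :
    ∀ k ∈ Z.N, ∀ g, Z.a (g * k) = Z.a g ∧ Z.b (g * k) = Z.b g := by
  obtain ⟨u, hu⟩ := Z.reg
  haveI := Z.N_normal
  exact _root_.P022G.Kl.inv_of_tr Z.gm S.g0 hu (fun h => (Z.x0 h).1) (fun h => (Z.x0 h).2) Z.N
    fun k hk => hk

theorem PO.π_t (Z : PO S B) (g : GQ) : Z.π (Z.t g) = (mx S.rb g).trace := by
  rw [← Z.gm.sum, map_add, Z.ra, Z.rb, Matrix.trace_fin_two]

theorem PO.π_d (Z : PO S B) (g : GQ) : Z.π (Z.d g) = (mx S.rb g).det := by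
  rw [← Z.gm.det, map_sub, map_mul, Z.ra, Z.rb, Z.rx, Matrix.det_fin_two]

theorem PO.nil (Z : PO S B) : ∃ n : ℕ, RingHom.ker Z.π ^ n = ⊥ := by
  haveI := Z.fin
  haveI : Finite (B ⧸ (⊥ : Ideal B)) := Finite.of_surjective _ Ideal.Quotient.mk_surjective
  obtain ⟨n, hn⟩ := Vale.Agent.P022F.Nak.nilp (⊥ : Ideal B) (RingHom.ker Z.π) fun r hr => by
    obtain ⟨a, b, hab, h⟩ := Finite.exists_ne_map_eq_of_infinite fun n : ℕ => r ^ n
    wlog hlt : a < b generalizing a b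
    · exact this b a hab.symm h.symm (by omega)
    obtain ⟨c, rfl⟩ := Nat.exists_eq_add_of_lt hlt
    have hu : IsUnit (1 - r ^ (c + 1)) := Z.loc _ (by
      rw [map_sub, map_one, map_pow, RingHom.mem_ker.1 hr]; simp)
    refine ⟨a, (Submodule.mem_bot B).2 (hu.mul_left_eq_zero.1 ?_)⟩
    rw [mul_sub, mul_one, ← pow_add, ← add_assoc]
    exact sub_eq_zero.2 h
  exact ⟨n, le_bot_iff.1 hn⟩

theorem PO.pow_mem [CharP F 2] (Z : PO S B) {g : GQ} (hg : S.rb g = 1) :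
    ∃ k : ℕ, g ^ 2 ^ k ∈ Z.N := by
  obtain ⟨n, hn⟩ := Z.nil
  set m := RingHom.ker Z.π with hm
  have two : (2 : F) = 0 := CharP.cast_eq_zero F 2
  have h2 : (2 : B) ∈ m := by rw [hm, RingHom.mem_ker, map_ofNat]; exact two
  have ht : Z.t g ∈ m := by
    rw [hm, RingHom.mem_ker, Z.π_t]
    simp [mx, hg, two]
  have hd : 1 - (Z.d g : B) ∈ m := by
    rw [hm, RingHom.mem_ker, map_sub, Z.π_d]
    simp [mx, hg]
  have sq : ∀ h, Z.t (h * g * g) = Z.t g * Z.t (h * g) - Z.d g * Z.t h := fun h => by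
    have := Z.tf.mul (h * g) g
    rw [mul_inv_cancel_right] at this
    linear_combination -this
  have key : ∀ k : ℕ, ∃ p q : B, p ∈ m ^ k ∧ p ∈ m ∧ q ∈ m ^ k ∧
      ∀ h, Z.t (h * g ^ 2 ^ k) = (1 + p - q) * Z.t h + q * Z.t (h * g) := by
    intro k
    induction k with
    | zero => exact ⟨0, 1, by simp, m.zero_mem, by simp, fun h => by simp⟩
    | succ k ih =>
      obtain ⟨p, q, h1, h1', h3, h4⟩ := ih
      have mm : ∀ {x y : B}, x ∈ m ^ k → y ∈ m → x * y ∈ m ^ (k + 1) := fun hx hy => by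
        rw [pow_succ]; exact Ideal.mul_mem_mul hx hy
      have e1 : p * 2 + p * p + q * (q * (1 - Z.d g + Z.t g) - 2 * q) ∈ m ^ (k + 1) :=
        add_mem (add_mem (mm h1 h2) (mm h1 h1')) (mm h3
          (sub_mem (m.mul_mem_left _ (add_mem hd ht)) (m.mul_mem_right _ h2)))
      refine ⟨_, q * (2 * (1 + p - q) + q * Z.t g), e1,
        Ideal.pow_le_self (Nat.succ_ne_zero k) e1,
        mm h3 (add_mem (m.mul_mem_right _ h2) (m.mul_mem_left _ ht)), fun h => ?_⟩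
      have c : h * g ^ 2 ^ k * g = h * g * g ^ 2 ^ k := by
        rw [mul_assoc, mul_assoc, ← pow_succ, ← pow_succ']
      rw [pow_succ, pow_mul, pow_two, ← mul_assoc, h4, c, h4, h4, sq]
      ring
  obtain ⟨p, q, h1, -, h3, h4⟩ := key n
  rw [hn, Submodule.mem_bot] at h1 h3
  exact ⟨n, fun h => by rw [h4, h1, h3]; ring⟩

/-- the generators generate modulo the common kernel of finitely many pseudo objects -/
theorem gen_mod [CharP F 2] {Q : Finset ℕ} {ι : Type} {γ : ι → GQ} (hG : Gen S Q γ)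
    (N : Subgroup GQ) [N.Normal] (ho : IsOpen (N : Set GQ))
    (h2 : ∀ g, S.rb g = 1 → ∃ k : ℕ, g ^ 2 ^ k ∈ N)
    (hu : ∀ l : ℕ, l.Prime → l ∉ S.T → l ∉ Q → ∀ P : Ideal (𝓞 Qb), P.IsPrime →
      (l : 𝓞 Qb) ∈ P → ∀ s, Inert P s → s ∈ N) (g : GQ) :
    ∃ w ∈ Subgroup.closure (Set.range γ), g⁻¹ * w ∈ N := by
  haveI : IsGalois ℚ Qb := IsAlgClosure.isGalois ℚ Qb
  haveI : Finite (GQ ⧸ N) := Subgroup.quotient_finite_of_isOpen N ho
  have h := hG (GQ ⧸ N) (QuotientGroup.mk' N)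
    (by simp only [QuotientGroup.mk'_apply, QuotientGroup.eq_one_iff]; exact ho)
    (fun g hg => by
      obtain ⟨k, hk⟩ := h2 g hg
      exact ⟨k, by rw [← map_pow]; exact (QuotientGroup.eq_one_iff _).2 hk⟩)
    (fun l a b c P d e s f => (QuotientGroup.eq_one_iff _).2 (hu l a b c P d e s f)) g
  have e : Set.range (fun i => QuotientGroup.mk' N (γ i)) = QuotientGroup.mk' N '' Set.range γ := by
    rw [← Set.range_comp]; rfl
  rw [e, ← MonoidHom.map_closure] at h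
  obtain ⟨w, hw, h⟩ := h
  exact ⟨w, hw, QuotientGroup.eq.1 h.symm⟩

/-- generation for any system of entries which is invariant under N -/
theorem gen_ent {t : GQ → B} {d : GQ →* Bˣ} {a b : GQ → B} {x : GQ → GQ → B} (T : GM t d a b x)
    {ι : Type} (γ : ι → GQ) (N : Subgroup GQ) [N.Normal]
    (hs : ∀ g, ∃ w ∈ Subgroup.closure (Set.range γ), g⁻¹ * w ∈ N)
    (hN : ∀ k ∈ N, ∀ g, a (g * k) = a g ∧ b (g * k) = b g) (R : Subring B)
    (ha : ∀ i, a (γ i) ∈ R) (hb : ∀ i, b (γ i) ∈ R) (hx : ∀ i k, x (γ i) (γ k) ∈ R)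
    (hd : ∀ i, (((d (γ i))⁻¹ : Bˣ) : B) ∈ R) (g h : GQ) :
    a g ∈ R ∧ b g ∈ R ∧ x g h ∈ R ∧ t g ∈ R ∧ (d g : B) ∈ R := by
  obtain ⟨h1, -⟩ := _root_.P022G.Kd2.mem T γ R ha hb hx hd
  have ab : ∀ g, a g ∈ R ∧ b g ∈ R := fun g => by
    obtain ⟨w, hw, e⟩ := hs g
    have := hN _ e g
    rw [mul_inv_cancel_left] at this
    exact ⟨this.1 ▸ (h1 w hw).1, this.2 ▸ (h1 w hw).2.1⟩
  have xx : ∀ g h, x g h ∈ R := fun g h => by
    have : x g h = a (g * h) - a g * a h := by rw [T.am]; ring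
    rw [this]
    exact R.sub_mem (ab _).1 (R.mul_mem (ab g).1 (ab h).1)
  refine ⟨(ab g).1, (ab g).2, xx g h, ?_, ?_⟩
  · rw [← T.sum]; exact R.add_mem (ab g).1 (ab g).2
  · rw [← T.det]; exact R.sub_mem (R.mul_mem (ab g).1 (ab g).2) (xx g g)

theorem inv_mem_fin [Finite B] (R : Subring B) (u : Bˣ) (hu : (u : B) ∈ R) :
    ((u⁻¹ : Bˣ) : B) ∈ R := by
  obtain ⟨n, hn, h⟩ := (isOfFinOrder_of_finite u).exists_pow_eq_one
  obtain ⟨k, rfl⟩ := Nat.exists_eq_succ_of_ne_zero hn.ne'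
  have : u⁻¹ = u ^ k := by rw [inv_eq_iff_mul_eq_one, ← pow_succ', h]
  rw [this, Units.val_pow_eq_pow_val]
  exact R.pow_mem hu k

theorem gv_mem {ι : Type} (rc : ι → M2 O) (j : O →+* B) (a d : ι → B) (x : ι → ι → B)
    (R : Subring B) (hj : ∀ o, j o ∈ R) (h : ∀ s, gv rc j a d x s ∈ R) :
    (∀ i, a i ∈ R) ∧ (∀ i, d i ∈ R) ∧ ∀ i k, x i k ∈ R :=
  ⟨fun i => by simpa [gv] using R.add_mem (h (Sum.inl i)) (hj (rc i 0 0)),
    fun i => by simpa [gv] using R.add_mem (h (Sum.inr (Sum.inl i))) (hj (rc i 1 1)),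
    fun i k => by
      have := R.add_mem (h (Sum.inr (Sum.inr (i, k)))) (hj (rc i 0 1 * rc k 1 0))
      rwa [show gv rc j a d x (Sum.inr (Sum.inr (i, k))) = x i k - j (rc i 0 1 * rc k 1 0) from rfl,
        sub_add_cancel] at this⟩

/-- **the symbols generate** -/
theorem PO.gen [CharP F 2] (Z : PO S B) (Q : Finset ℕ)
    (unr : ∀ l : ℕ, l.Prime → l ∉ S.T → l ∉ Q → ∀ P : Ideal (𝓞 Qb), P.IsPrime →
      (l : 𝓞 Qb) ∈ P → ∀ s, Inert P s → ∀ g, Z.t (g * s) = Z.t g)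
    {ι : Type} (γ : ι → GQ) (hG : Gen S Q γ) (rc : ι → M2 O) (R : Subring B)
    (hι : ∀ o, Z.ι o ∈ R) (hv : ∀ s, Z.val rc γ s ∈ R) (g h : GQ) :
    Z.a g ∈ R ∧ Z.b g ∈ R ∧ Z.x g h ∈ R ∧ Z.t g ∈ R ∧ (Z.d g : B) ∈ R := by
  haveI := Z.N_normal
  haveI := Z.fin
  obtain ⟨ha, hb, hx⟩ := gv_mem rc Z.ι _ _ _ R hι hv
  refine gen_ent Z.gm γ Z.N (gen_mod hG Z.N Z.N_open (fun g hg => Z.pow_mem hg) unr) Z.N_inv R
    ha hb hx (fun i => inv_mem_fin R _ ?_) g h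
  rw [← Z.gm.det]
  exact R.sub_mem (R.mul_mem (ha i) (hb i)) (hx i i)

end Vale.Agent.P022G
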