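import Vale.Agent.P022G.Kd.A
import Vale.Agent.P022D.Gma.Rep
import Vale.Agent.P022D.PA.Lim

/-!
# P022G, row KDEL: from a pseudo object to objects over quotients of a ring of matrix entries
-/

set_option linter.all false

noncomputable section

namespace Vale.Agent.P022G

open NumberField IsLocalRing
open Vale.Agent.P022 Vale.Agent.P022.H346 Vale.Agent.P022G.R Vale.Agent.P022G.Loc
open Vale.Agent.P027M.S (Inert mx)
open Vale.Agent.P022D.Sel (M2)
open Vale.Agent.P022E.Loc (Pl Rt En)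
open Vale.Agent.P022F.Gm (GM)

/-- pull back of a system of entries along an injective map -/
theorem gm_pull {G A B : Type} [Group G] [CommRing A] [CommRing B] (e : A →+* B)
    (he : Function.Injective e) {t : G → B} {d : G →* Bˣ} {a b : G → B} {x : G → G → B}
    (T : GM t d a b x) (h : ∀ g h, a g ∈ e.range ∧ b g ∈ e.range ∧ x g h ∈ e.range ∧
      t g ∈ e.range ∧ (d g : B) ∈ e.range) :
    ∃ (t' : G → A) (d' : G →* Aˣ) (a' b' : G → A) (x' : G → G → A), GM t' d' a' b' x' ∧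
      (∀ g, e (t' g) = t g) ∧ (∀ g, e (d' g) = d g) ∧ (∀ g, e (a' g) = a g) ∧
      (∀ g, e (b' g) = b g) ∧ ∀ g h, e (x' g h) = x g h := by
  choose a' ha using fun g => (h g g).1
  choose b' hb using fun g => (h g g).2.1
  choose x' hx using fun g k => (h g k).2.2.1
  choose t' ht using fun g => (h g g).2.2.2.1
  choose d' hd using fun g => (h g g).2.2.2.2
  let D : G →* A := ⟨⟨d', he (by rw [hd]; simp)⟩, fun g k => he (by simp [hd])⟩
  have hD : ∀ g, e (D.toHomUnits g) = d g := fun g => hd g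
  refine ⟨t', D.toHomUnits, a', b', x', ⟨fun g => he ?_, he ?_, he ?_, fun g k => he ?_,
    fun g k => he ?_, fun g k l => he ?_, fun g k l => he ?_, fun g => he ?_,
    fun g k l m => he ?_⟩, ht, hD, ha, hb, hx⟩
  · simp only [map_add, ha, hb, ht, T.sum]
  · simp only [ha, map_one, T.a1]
  · simp only [hb, map_one, T.b1]
  · simp only [map_add, map_mul, ha, hx, T.am]
  · simp only [map_add, map_mul, hb, hx, T.bm]
  · simp only [map_add, map_mul, ha, hb, hx, T.cl]
  · simp only [map_add, map_mul, ha, hb, hx, T.cr]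
  · rw [hD, map_sub, map_mul, ha, hb, hx, T.det]
  · simp only [map_mul, hx]
    exact T.sw _ _ _ _

/-- membership in an ideal is tested on finite local quotients -/
theorem loc_test {P F : Type} [CommRing P] [IsLocalRing P] [IsNoetherianRing P] [Field F]
    [Finite F] (res : P →+* F) (hres : ∀ u, res u ≠ 0 → IsUnit u) (I : Ideal P) (f : P)
    (h : ∀ (Q : Type) [CommRing Q] [Finite Q] (μ : P →+* Q) (π' : Q →+* F),
      (∀ u, π' u ≠ 0 → IsUnit u) → (∀ s, π' (μ s) = res s) → (∀ s ∈ I, μ s = 0) → μ f = 0) :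
    f ∈ I := by
  by_cases hI : I = ⊤
  · rw [hI]; trivial
  have hk : maximalIdeal P = RingHom.ker res := le_antisymm
    (fun u hu => by
      by_contra hn
      exact hu (hres u hn))
    (le_maximalIdeal (RingHom.ker_ne_top res))
  haveI : Finite (P ⧸ maximalIdeal P) := by
    rw [hk]
    exact Finite.of_injective _ (RingHom.kerLift_injective res)
  refine P022D.PA.mem_of_sup I f fun j => ?_
  haveI : Finite (P ⧸ maximalIdeal P ^ (j + 1)) :=
    Ideal.finite_quotient_pow (IsNoetherian.noetherian _) _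
  haveI : Finite (P ⧸ (I ⊔ maximalIdeal P ^ (j + 1))) :=
    Finite.of_surjective _ (Ideal.Quotient.factor_surjective le_sup_right)
  have hle : I ⊔ maximalIdeal P ^ (j + 1) ≤ RingHom.ker res := by
    rw [← hk]
    exact sup_le (le_maximalIdeal hI) (Ideal.pow_le_self (Nat.succ_ne_zero j))
  have := h _ (Ideal.Quotient.mk (I ⊔ maximalIdeal P ^ (j + 1)))
    (Ideal.Quotient.lift _ res fun a ha => hle ha)
    (fun u hu => by
      obtain ⟨u, rfl⟩ := Ideal.Quotient.mk_surjective u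
      exact (hres u hu).map _)
    (fun s => rfl) fun s hs => Ideal.Quotient.eq_zero_iff_mem.2 (Ideal.mem_sup_left hs)
  exact sup_le_sup_left (Ideal.pow_le_pow_right (Nat.le_succ j)) I
    (Ideal.Quotient.eq_zero_iff_mem.1 this)

variable {O F : Type} [CommRing O] [Field F] {S : Dat O F} {B : Type} [CommRing B]

/-- a simple root lies in every subring which contains the coefficients -/
theorem PO.root_mem (Z : PO S B) (R : Subring B) (hι : ∀ o, Z.ι o ∈ R) {t d y : B} (ht : t ∈ R)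
    (hd : d ∈ R) (hy : y ^ 2 - t * y + d = 0) (hne : Z.π (2 * y - t) ≠ 0) : y ∈ R := by
  haveI := Z.fin
  obtain ⟨n, hn⟩ := Z.nil
  obtain ⟨o, ho⟩ := S.surj (Z.π y)
  have ho' : Z.π (Z.ι o) = Z.π y := by rw [Z.alg, ho]
  set I : Ideal R := (RingHom.ker Z.π).comap R.subtype with hI
  have hIn : I ^ n = ⊥ := by
    refine le_bot_iff.1 fun u hu => ?_
    have := Ideal.le_comap_pow R.subtype n hu
    rw [hn, Ideal.mem_comap, Submodule.mem_bot] at this
    exact (Submodule.mem_bot _).2 (Subtype.ext this)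
  haveI := P022D.Gma.henselian_of_pow hIn
  have hu : IsUnit (2 * Z.ι o - t) := Z.loc _ (by
    rw [map_sub, map_mul, ho', ← map_mul, ← map_sub]; exact hne)
  have hm : 2 * Z.ι o - t ∈ R := R.sub_mem (R.mul_mem (ofNat_mem R 2) (hι o)) ht
  obtain ⟨α, β, h1, h2, h3⟩ := P022D.Gma.hensel I ⟨t, ht⟩ ⟨d, hd⟩ ⟨Z.ι o, hι o⟩
    (by
      change Z.π (Z.ι o ^ 2 - t * Z.ι o + d) = 0
      have := congrArg Z.π hy
      simp only [map_add, map_sub, map_mul, map_pow, map_zero, ho'] at this ⊢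
      exact this)
    (by
      refine IsUnit.map _ (IsUnit.of_mul_eq_one ⟨_, inv_mem_fin R hu.unit hm⟩ (Subtype.ext ?_))
      exact hu.mul_val_inv)
  have e1 : (α : B) + β = t := congrArg Subtype.val h1
  have e2 : (α : B) * β = d := congrArg Subtype.val h2
  have e3 : Z.π (α - Z.ι o) = 0 := h3
  have := (P022D.Gma.root_unique (α := (α : B)) (β := β) (α' := y) (β' := t - y)
    (by rw [e1]; ring) (by rw [e2]; linear_combination hy) (Z.loc _ (by
      have : (β : B) = t - α := by rw [← e1]; ring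
      rw [map_sub, ho', sub_eq_zero] at e3
      rw [this]
      simp only [map_sub, map_mul, map_ofNat, e3] at hne ⊢
      intro h
      exact hne (by linear_combination h)))).1
  rw [this]
  exact α.2

theorem PO.N_rb [IsLocalRing O] {L : Pl O} (hL : OkG L S) (Z : PO S B) {k : GQ} (hk : k ∈ Z.N) :
    mx S.rb k = 1 := by
  haveI := Z.N_normal
  obtain ⟨h1, h2, -⟩ := _root_.P022G.Kl.ker_ent Z.gm Z.N Z.N_inv k hk
  have e1 := Z.ra k
  have e2 := Z.rb k
  rw [h1, map_one] at e1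
  rw [h2, map_one] at e2
  have hH : k ∈ L.H := by
    by_contra hn
    exact one_ne_zero (e1.trans (hL.dh.ad k hn).1)
  ext i j
  fin_cases i <;> fin_cases j
  exacts [e1.symm, (hL.dh.dg k hH).1, (hL.dh.dg k hH).2, e2.symm]

/-- **the core**: after dividing by an ideal `J` which is killed by the products of off-diagonal
entries, the matrices `Zm` define objects -/
theorem PO.core [CharP F 2] [IsLocalRing O] {L : Pl O} (hL : OkG L S) (Z : PO S B) {Q : Finset ℕ}
    (hZ : Z.Cl L Q) {ι : Type} (γ : ι → GQ) (hG : Gen S Q γ) (i0 : ι) (h0 : γ i0 = S.g0)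
    {P0 P2 : Type} [CommRing P0] [CommRing P2] (ψ : P0 →+* B) (cO : O →+* P0)
    (hc : ∀ o, ψ (cO o) = Z.ι o) (pa pb : ι → P0) (px : ι → ι → P0)
    (ha : ∀ i, ψ (pa i) = Z.a (γ i)) (hb : ∀ i, ψ (pb i) = Z.b (γ i))
    (hx : ∀ i k, ψ (px i k) = Z.x (γ i) (γ k)) (φ : P0 →+* P2) (res : P2 →+* F)
    (hres : ∀ u, res u ≠ 0 → IsUnit u) (hφ : ∀ o, res (φ (cO o)) = S.red o) (Zm : ι → M2 P2)
    (hZm : ∀ i, (Zm i).map res = mx S.rb (γ i)) (tt : Ideal P2)
    (ha' : ∀ i, φ (pa i) - Zm i 0 0 ∈ tt) (hb' : ∀ i, φ (pb i) - Zm i 1 1 ∈ tt)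
    (hx' : ∀ i k, φ (px i k) - Zm i 0 1 * Zm k 1 0 ∈ tt)
    (h01 : Zm i0 0 1 ∈ tt) (h10 : Zm i0 1 0 ∈ tt) :
    ∃ J : Ideal P2, (∀ i k, ∀ s ∈ J, Zm i 0 1 * Zm k 1 0 * s ∈ (RingHom.ker ψ).map φ ⊔ tt) ∧
      ∀ (A : Type) [CommRing A] [Finite A] (μ : P2 →+* A) (π' : A →+* F),
        (∀ u, π' u ≠ 0 → IsUnit u) → (∀ s, π' (μ s) = res s) →
        (∀ s ∈ (RingHom.ker ψ).map φ ⊔ tt ⊔ J, μ s = 0) → ∀ α β : ℕ → M2 A,
        (∀ l, α l * β l = 1) → (∀ l, (α l).map π' = 1) → (∀ l ∉ S.T, α l = 1) →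
        (α S.l0 0 0 = 1 ∧ α S.l0 1 1 = 1) →
        ∃ X : Obj S A, X.ι = μ.comp (φ.comp cO) ∧ X.π = π' ∧ X.α = α ∧ X.β = β ∧
          Ty (ClG L S) Q A X ∧ (∀ i, X.ρ (γ i) = (Zm i).map μ) ∧ (∀ k ∈ Z.N, X.ρ k = 1) ∧
          (∀ g u, ψ u = Z.t g → (X.ρ g).trace = μ (φ u)) ∧
          ∀ g u, ψ u = Z.d g → (X.ρ g).det = μ (φ u) := by
  haveI := Z.N_normal
  haveI := Z.fin
  set e := RingHom.kerLift ψ with he
  have ei : Function.Injective e := RingHom.kerLift_injective ψ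
  have em : ∀ u, e (Ideal.Quotient.mk _ u) = ψ u := fun u => rfl
  have hs0 := gen_mod hG Z.N Z.N_open (fun g hg => Z.pow_mem hg) hZ.unr
  have hR : ∀ g h, Z.a g ∈ e.range ∧ Z.b g ∈ e.range ∧ Z.x g h ∈ e.range ∧ Z.t g ∈ e.range ∧
      (Z.d g : B) ∈ e.range := by
    have m1 : ∀ i, Z.a (γ i) ∈ e.range := fun i => ⟨_, (em _).trans (ha i)⟩
    have m2 : ∀ i, Z.b (γ i) ∈ e.range := fun i => ⟨_, (em _).trans (hb i)⟩
    have m3 : ∀ i k, Z.x (γ i) (γ k) ∈ e.range := fun i k => ⟨_, (em _).trans (hx i k)⟩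
    refine gen_ent Z.gm γ Z.N hs0 Z.N_inv e.range m1 m2 m3 fun i => inv_mem_fin _ _ ?_
    rw [← Z.gm.det]
    exact e.range.sub_mem (e.range.mul_mem (m1 i) (m2 i)) (m3 i i)
  obtain ⟨t', d', a', b', x', T, et, ed, ea, eb, ex⟩ := gm_pull e ei Z.gm hR
  have hu : ∀ i, IsUnit (Zm i) := fun i => (Matrix.isUnit_iff_isUnit_det _).2 (hres _ (by
    rw [RingHom.map_det, RingHom.mapMatrix_apply, hZm, hL.det]; exact one_ne_zero))
  set q : FreeGroup ι →* GQ := FreeGroup.lift γ with hq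
  set Zf : FreeGroup ι →* M2 P2 := (Units.coeHom _).comp (FreeGroup.lift fun i => (hu i).unit)
    with hZf
  have q1 : ∀ i, q (FreeGroup.of i) = γ i := fun i => FreeGroup.lift_apply_of
  have z1 : ∀ i, Zf (FreeGroup.of i) = Zm i := fun i => by
    rw [hZf, MonoidHom.comp_apply, FreeGroup.lift_apply_of]; rfl
  have hs : ∀ g, ∃ w, g⁻¹ * q w ∈ Z.N := fun g => by
    obtain ⟨w, hw, h⟩ := hs0 g
    rw [← FreeGroup.range_lift_eq_closure] at hw
    obtain ⟨v, rfl⟩ := hw
    exact ⟨v, h⟩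
  obtain ⟨k1, k2⟩ := _root_.P022G.Kl.klev φ (RingHom.ker ψ) tt FreeGroup.of
    (FreeGroup.closure_range_of ι) q T Z.N hs
    (fun k hk g => ⟨ei (by rw [ea, ea, (Z.N_inv k hk g).1]),
      ei (by rw [eb, eb, (Z.N_inv k hk g).2])⟩) Zf pa pb px
    (fun i => ei (by rw [em, ea, q1, ha])) (fun i => ei (by rw [em, eb, q1, hb]))
    (fun i k => ei (by rw [em, ex, q1, q1, hx])) (fun i => by rw [z1]; exact ha' i)
    (fun i => by rw [z1]; exact hb' i) (fun i k => by rw [z1, z1]; exact hx' i k)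
  refine ⟨_, fun i k s hs => by simpa only [z1] using k1 (FreeGroup.of i) (FreeGroup.of k) s hs,
    fun A _ _ μ π' hπ hμ hI α β i1 i2 i3 i4 => ?_⟩
  obtain ⟨ρ, r1, r2, r3, r4, -⟩ := k2 A μ hI
  have r3' : ∀ g u, ψ u = Z.t g → (ρ g).trace = μ (φ u) := fun g u h =>
    r3 g u (ei (by rw [em, et, h]))
  have r4' : ∀ g u, ψ u = Z.d g → (ρ g).det = μ (φ u) := fun g u h =>
    r4 g u (ei (by rw [em, ed, h]))
  have rγ : ∀ i, ρ (γ i) = (Zm i).map μ := fun i => by rw [← q1, r1, z1]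
  have tt0 : ∀ s ∈ tt, μ s = 0 := fun s hs => hI s (Ideal.mem_sup_left (Ideal.mem_sup_right hs))
  have k0 : ∀ u, ψ u = 0 → μ (φ u) = 0 := fun u hu =>
    hI _ (Ideal.mem_sup_left (Ideal.mem_sup_left (Ideal.mem_map_of_mem φ hu)))
  have rres : ∀ g, (ρ g).map π' = mx S.rb g := fun g => by
    obtain ⟨w, hw⟩ := hs g
    have e1 : q w = g * (g⁻¹ * q w) := by group
    have e2 : (res.mapMatrix.toMonoidHom.comp Zf : FreeGroup ι →* M2 F).toHomUnits =
        S.rb.comp q := FreeGroup.ext_hom _ _ fun i => Units.ext (by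
      change (Zf (FreeGroup.of i)).map res = mx S.rb (q (FreeGroup.of i))
      rw [z1, q1, hZm])
    have e3 : (Zf w).map res = mx S.rb (q w) := congrArg Units.val (DFunLike.congr_fun e2 w)
    have e4 : ρ g = (Zf w).map μ := by rw [← r1, e1, map_mul, r2 _ hw, mul_one]
    have e5 : mx S.rb (q w) = mx S.rb g * mx S.rb (g⁻¹ * q w) := by
      conv_lhs => rw [e1]
      simp only [mx, map_mul, Units.val_mul]
    rw [Z.N_rb hL hw, mul_one] at e5
    rw [e4, ← e5, ← e3]
    ext i k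
    exact hμ _
  have hπψ : ∀ u, π' (μ (φ u)) = Z.π (ψ u) := fun u => by
    obtain ⟨n, hn⟩ := Z.nil
    obtain ⟨o, ho⟩ := S.surj (Z.π (ψ u))
    have e1 : ψ (u - cO o) ∈ RingHom.ker Z.π := by
      rw [RingHom.mem_ker, map_sub, map_sub, hc, Z.alg, ho, sub_self]
    have e2 := Ideal.pow_mem_pow e1 n
    rw [hn, Submodule.mem_bot, ← map_pow] at e2
    have e3 := congrArg π' (k0 _ e2)
    rw [map_pow, map_pow, map_pow, map_zero] at e3
    have e4 := pow_eq_zero_iff'.1 e3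
    have e5 := e4.1
    rw [map_sub, map_sub, map_sub, sub_eq_zero, hμ (φ (cO o)), hφ, ho] at e5
    exact e5
  let X : Obj S A :=
    { ι := μ.comp (φ.comp cO), π := π', ρ := ρ, α := α, β := β, fin := inferInstance, loc := hπ
      alg := fun c => by rw [RingHom.comp_apply, RingHom.comp_apply, hμ, hφ]
      res := rres
      opn := by
        have : {g | ρ g = 1} = (ρ.toHomUnits.ker : Set GQ) :=
          Set.ext fun g => ⟨fun h => Units.ext h, fun h => congrArg Units.val h⟩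
        rw [this]
        exact Subgroup.isOpen_mono (H₁ := Z.N) (fun k hk => Units.ext (r2 k hk)) Z.N_open
      dg := by
        rw [← h0, rγ]
        exact ⟨tt0 _ h01, tt0 _ h10⟩
      inv := i1, one := i2, off := i3, fr := i4 }
  refine ⟨X, rfl, rfl, rfl, rfl, ⟨⟨fun g hg => ?_, ?_, fun l hl => ?_, fun l hl => ?_⟩,
    fun l a b c P d f s hs => r2 s (hZ.unr l a b c P d f s hs)⟩, rγ, r2, r3', r4'⟩
  · exact r4' g _ ((hc _).trans (hZ.d2 g hg).symm)
  · have := r4' L.c (-1) (by rw [hZ.dc, map_neg, map_one])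
    simpa using this
  · exact r4' _ _ ((hc _).trans (hZ.dl l hl).symm)
  · obtain ⟨y, y1, y2, y3⟩ := hZ.ty l hl
    have lift : ∀ z ∈ e.range, ∃ u, ψ u = z := fun z ⟨v, hv⟩ => by
      obtain ⟨u, rfl⟩ := Ideal.Quotient.mk_surjective v
      exact ⟨u, hv⟩
    have two : (2 : F) = 0 := CharP.cast_eq_zero F 2
    obtain ⟨uy, huy⟩ := lift y (Z.root_mem e.range (fun o => ⟨_, (em _).trans (hc o)⟩)
      (hR _ 1).2.2.2.1 (hR _ 1).2.2.2.2 y1 (by
        rw [map_sub, map_mul, map_ofNat, two, zero_mul, Z.π_t, Matrix.trace_fin_two]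
        intro h
        exact (hL.reg l hl).2.2 (by linear_combination -h - mx S.rb (L.g0 l) 1 1 * two)))
    choose ut hut using fun g => lift _ (hR g 1).2.2.2.1
    choose ud hud using fun g => lift _ (hR g 1).2.2.2.2
    refine ⟨μ (φ uy), ?_, ?_, ?_⟩
    · change _ - (ρ _).trace * _ + (ρ _).det = 0
      rw [r3' _ _ (hut _), r4' _ _ (hud _)]
      have := k0 (uy ^ 2 - ut (L.g0 l) * uy + ud (L.g0 l)) (by
        rw [map_add, map_sub, map_mul, map_pow, huy, hut, hud, y1])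
      simpa only [map_add, map_sub, map_mul, map_pow] using this
    · change π' _ = _
      rw [hπψ, huy, y2]
    · change (ρ _).trace - _ * (ρ _).trace = μ (φ (cO _)) * ((ρ _).trace - _)
      rw [r3' _ _ (hut _), r3' _ _ (hut _), r3' _ _ (hut _), ← sub_eq_zero]
      have := k0 (ut (L.τ l * L.g0 l) - uy * ut (L.τ l) - cO (L.a l) * (ut (L.g0 l) - 2 * uy)) (by
        simp only [map_sub, map_mul, map_ofNat, huy, hut, hc]
        rw [y3, sub_self])
      simpa only [map_sub, map_mul, map_ofNat] using this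

end Vale.Agent.P022G
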